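import Vale.Agent.P092A1.Gen
import Vale.Agent.P092A2.Simp

/-!
The points over a complete field of a connected algebraic group: chart at the identity and density.
-/

set_option linter.all false

open MvPolynomial Matrix Filter Topology Vale.Agent.P092AG Vale.Agent.P092A2
open scoped Matrix.Norms.Elementwise

namespace Vale.Agent.P092A1

noncomputable section

section Alg

variable {n : ℕ} {R : Type} [Field R]

/-- the entries of a matrix -/
abbrev en (x : Mt n R) : Fin n × Fin n → R := fun ij => x ij.1 ij.2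

theorem ev_def (x : Mt n R) (p : Pl n R) : ev x p = eval (en x) p := rfl

/-- left translation -/
def tl (a : Mt n R) : Pl n R →ₐ[R] Pl n R := aeval fun ij => ∑ l, C (a ij.1 l) * X (l, ij.2)

theorem ev_tl (a y : Mt n R) (p : Pl n R) : ev y (tl a p) = ev (a * y) p := by
  induction p using MvPolynomial.induction_on with
  | C c => rw [tl, aeval_C, algebraMap_eq, ev_C, ev_C]
  | add p q hp hq => simp only [map_add, hp, hq]
  | mul_X p ij hp =>
    obtain ⟨i, j⟩ := ij
    rw [map_mul, map_mul, map_mul, hp, tl, aeval_X, ev_X, map_sum, mul_apply]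
    simp only [map_mul, ev_C, ev_X]

/-- a connected group is smooth -/
theorem sm_one [PerfectField R] [Infinite R] {G : Subgroup (GL (Fin n) R)}
    (h : (van (G : Set (GL (Fin n) R))).IsPrime) :
    Sm (van (G : Set (GL (Fin n) R))) (en (1 : Mt n R)) := by
  obtain ⟨c, h1, h2⟩ := exists_sm (van (G : Set (GL (Fin n) R)))
  obtain ⟨g, hg, e⟩ : ∃ g ∈ G, ev (g : Mt n R) c ≠ 0 := by
    by_contra e
    exact h1 fun g hg => by_contra fun a => e ⟨g, hg, a⟩
  have k : ∀ a ∈ G, ∀ p ∈ van (G : Set (GL (Fin n) R)),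
      tl (a : Mt n R) p ∈ van (G : Set (GL (Fin n) R)) := fun a ha p hp => mem_van.2 fun b hb => by
    rw [ev_tl, ← Units.val_mul]; exact mem_van.1 hp _ (G.mul_mem ha hb)
  have h3 := h2 (en (g : Mt n R)) (fun p hp => by rw [← ev_def]; exact mem_van.1 hp g hg)
    (by rwa [← ev_def])
  refine h3.map (k g hg) (k _ (G.inv_mem hg)) (fun p => MvPolynomial.funext fun y => ?_) fun p => ?_
  · rw [show y = en (of fun i j => y (i, j)) from rfl, ← ev_def, ← ev_def, ev_tl, ev_tl, ← mul_assoc,
      Units.inv_mul, one_mul]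
  · rw [← ev_def, ← ev_def, ev_tl, mul_one]

/-- the differential of a polynomial at the point `x` -/
def dv (x : Mt n R) (p : Pl n R) : Mt n R →ₗ[R] R where
  toFun v := ∑ ij, ev x (pderiv ij p) * v ij.1 ij.2
  map_add' v w := by simp only [Matrix.add_apply, mul_add, Finset.sum_add_distrib]
  map_smul' c v := by simp only [Matrix.smul_apply, smul_eq_mul, RingHom.id_apply, Finset.mul_sum,
    mul_left_comm]

theorem dv_apply (x : Mt n R) (p : Pl n R) (v : Mt n R) :
    dv x p v = ∑ ij, ev x (pderiv ij p) * v ij.1 ij.2 := rfl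

theorem dv_eq (x : Mt n R) (p : Pl n R) (v : Mt n R) : dv x p v = df (en x) p ⬝ᵥ en v := rfl

theorem dv_C (x : Mt n R) (c : R) (v : Mt n R) : dv x (C c) v = 0 := by simp [dv_apply]

theorem dv_add (x : Mt n R) (p q : Pl n R) (v : Mt n R) : dv x (p + q) v = dv x p v + dv x q v := by
  rw [dv_eq, map_add, add_dotProduct]; rfl

theorem dv_mul (x : Mt n R) (p q : Pl n R) (v : Mt n R) :
    dv x (p * q) v = ev x p * dv x q v + ev x q * dv x p v := by
  rw [dv_eq, df_mul, add_dotProduct, smul_dotProduct, smul_dotProduct]; rfl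

theorem dv_X (x : Mt n R) (i j : Fin n) (v : Mt n R) : dv x (X (i, j)) v = v i j := by
  rw [dv_apply, Finset.sum_eq_single (i, j) (fun b _ e => by
    rw [pderiv_X_of_ne e.symm, map_zero, zero_mul]) (by simp), pderiv_X_self, map_one, one_mul]

/-- the Lie algebra: the common kernel of the differentials of the equations -/
def lie (G : Subgroup (GL (Fin n) R)) : Submodule R (Mt n R) :=
  ⨅ p ∈ van (G : Set (GL (Fin n) R)), LinearMap.ker (dv 1 p)

theorem mem_lie {G : Subgroup (GL (Fin n) R)} {v : Mt n R} :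
    v ∈ lie G ↔ ∀ p ∈ van (G : Set (GL (Fin n) R)), dv 1 p v = 0 := by
  simp only [lie, Submodule.mem_iInf, LinearMap.mem_ker]

variable {k : Type} [Field k] [Algebra k R]

theorem pf_lam (l : R →ₗ[k] k) (p : Pl n R) :
    PF fun x : Mt n k => l (ev (x.map (algebraMap k R)) p) := by
  induction p using MvPolynomial.induction_on with
  | C c => simpa only [ev_C] using PF.const (l c)
  | add p q hp hq => simpa only [map_add] using hp.add hq
  | mul_X p ij hp =>
    obtain ⟨i, j⟩ := ij
    have := (PF.entry i j).mul hp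
    simp only [map_mul, ev_X, map_apply, mul_comm _ (algebraMap k R _), ← Algebra.smul_def,
      l.map_smul]
    exact this

theorem df_map (p : Pl n k) (ij : Fin n × Fin n) :
    df (en (1 : Mt n R)) (map (algebraMap k R) p) ij = algebraMap k R (df (en (1 : Mt n k)) p ij) := by
  have := ev_map (R := R) (1 : Mt n k) (pderiv ij p)
  rw [Matrix.map_one _ (map_zero _) (map_one _), ← pderiv_map] at this
  exact this

theorem lam_df (l : R →ₗ[k] k) (p : Pl n k) (w : Fin n × Fin n → R) :
    l (df (en (1 : Mt n R)) (map (algebraMap k R) p) ⬝ᵥ w) = dv 1 p (of fun i j => l (w (i, j))) := by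
  simp only [dotProduct, df_map, map_sum, ← Algebra.smul_def, l.map_smul]
  rfl

theorem alg_dv (p : Pl n k) (v : Mt n k) : algebraMap k R (dv 1 p v) =
    df (en (1 : Mt n R)) (map (algebraMap k R) p) ⬝ᵥ en (v.map (algebraMap k R)) := by
  simp only [dotProduct, df_map, dv_eq, map_sum, map_mul]
  rfl

theorem dv_single (x : Mt n R) (p : Pl n R) (ij : Fin n × Fin n) :
    dv x p (single ij.1 ij.2 1) = df (en x) p ij := by
  rw [dv_eq, show en (single ij.1 ij.2 (1 : R)) = Pi.single ij 1 from funext fun b => by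
    simp only [en, single_apply, Pi.single_apply, Prod.ext_iff, eq_comm], dotProduct_single, mul_one]

theorem mem_van_pts {𝔾 : Subgroup (GL (Fin n) R)} {p : Pl n k}
    (h : map (algebraMap k R) p ∈ van (𝔾 : Set (GL (Fin n) R))) :
    p ∈ van (pts k 𝔾 : Set (GL (Fin n) k)) := mem_van.2 fun g hg =>
  (algebraMap k R).injective (by rw [← ev_map, map_zero, ← io_val]; exact mem_van.1 h _ hg)

/-- rational local equations at the identity -/
theorem loc_eqs [PerfectField R] [Infinite R] {𝔾 : Subgroup (GL (Fin n) R)}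
    (h2 : (van (𝔾 : Set (GL (Fin n) R))).IsPrime)
    (h3 : van (𝔾 : Set (GL (Fin n) R)) ≤ Ideal.span {q | q ∈ van (𝔾 : Set (GL (Fin n) R)) ∧
      ∃ p : Pl n k, q = map (algebraMap k R) p}) :
    ∃ (r : ℕ) (f : Fin r → Pl n k) (η : Pl n R), ev 1 η = 1 ∧
      (∀ j, map (algebraMap k R) (f j) ∈ van (𝔾 : Set (GL (Fin n) R))) ∧
      (∀ h ∈ van (𝔾 : Set (GL (Fin n) R)),
        η * h ∈ Ideal.span (Set.range fun j => map (algebraMap k R) (f j))) ∧
      Function.Surjective (LinearMap.pi fun j => dv 1 (f j)) := by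
  obtain ⟨r, f, η, a, b, c⟩ := (sm_one h2).eqs
    (T := fun p : {p : Pl n k // map (algebraMap k R) p ∈ van (𝔾 : Set (GL (Fin n) R))} =>
      map (algebraMap k R) p.1) (fun p => p.2)
    (fun p => by rw [← ev_def, ← Units.val_one]; exact mem_van.1 p.2 1 𝔾.one_mem)
    (h3.trans (Ideal.span_mono (by rintro _ ⟨a, p, rfl⟩; exact ⟨⟨p, a⟩, rfl⟩)))
  refine ⟨r, fun j => (f j).1, η, a, fun j => (f j).2, b, LinearMap.range_eq_top.1 ?_⟩
  by_contra e
  obtain ⟨φ, h0, hφ⟩ := Submodule.exists_le_ker_of_lt_top _ (lt_top_iff_ne_top.2 e)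
  have := Fintype.linearIndependent_iff.1 c (fun j => algebraMap k R (φ fun i => if j = i then 1 else 0))
    (funext fun ij => by
      have := congrArg (algebraMap k R) (LinearMap.mem_ker.1 (hφ ⟨single ij.1 ij.2 1, rfl⟩))
      rw [LinearMap.pi_apply_eq_sum_univ] at this
      simpa only [Finset.sum_apply, Pi.smul_apply, df_map, smul_eq_mul, map_sum, map_mul, map_zero,
        LinearMap.pi_apply, dv_single, mul_comm, Pi.zero_apply] using this)
  refine h0 (LinearMap.ext fun v => ?_)
  simp only [map_eq_zero] at this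
  simp only [φ.pi_apply_eq_sum_univ v, this, smul_zero, Finset.sum_const_zero, LinearMap.zero_apply]

theorem exists_compl {V W : Type} [AddCommGroup V] [Module k V] [AddCommGroup W] [Module k W]
    [FiniteDimensional k V] (D : V →ₗ[k] W) (h : Function.Surjective D) :
    ∃ (d : ℕ) (A : V →ₗ[k] Fin d → k), Function.Bijective (D.prod A) := by
  obtain ⟨P, hP⟩ := (LinearMap.ker D).subtype.exists_leftInverse_of_injective
    (Submodule.ker_subtype _)
  have e1 : ∀ v : LinearMap.ker D, P v = v := fun v => LinearMap.congr_fun hP v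
  let e := (Module.finBasis k (LinearMap.ker D)).equivFun
  refine ⟨_, e.toLinearMap ∘ₗ P, (injective_iff_map_eq_zero _).2 fun v hv => ?_, fun ⟨a, w⟩ => ?_⟩
  · have := e1 ⟨v, congrArg Prod.fst hv⟩
    rw [e.map_eq_zero_iff.1 (congrArg Prod.snd hv)] at this
    exact (congrArg Subtype.val this).symm
  · obtain ⟨v, rfl⟩ := h a
    refine ⟨v + (e.symm w - P v : LinearMap.ker D), Prod.ext ?_ ?_⟩
    · exact (D.map_add _ _).trans (by rw [(e.symm w - P v).2, add_zero])
    · show e (P _) = w
      rw [map_add, e1, add_sub_cancel, e.apply_symm_apply]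

end Alg

variable {n : ℕ} {k : Type} [NontriviallyNormedField k] [CompleteSpace k]

theorem complete_mt : @CompleteSpace (Mt n k) PseudoMetricSpace.toUniformSpace :=
  inferInstanceAs (CompleteSpace (Fin n → Fin n → k))

theorem analyticAt_ev (p : Pl n k) (x : Mt n k) : AnalyticAt k (fun x : Mt n k => ev x p) x :=
  AnalyticOnNhd.eval_linearMap' (fun ij : Fin n × Fin n => entryLinearMap k k ij.1 ij.2) p x trivial

theorem hasStrict_ev (p : Pl n k) (x : Mt n k) :
    HasStrictFDerivAt (fun x : Mt n k => ev x p) (LinearMap.toContinuousLinearMap (dv x p)) x := by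
  induction p using MvPolynomial.induction_on with
  | C c =>
    simp only [ev_C]
    exact (hasStrictFDerivAt_const c x).congr_fderiv (by ext v; exact (dv_C x c v).symm)
  | add p q hp hq =>
    simp only [map_add]
    exact (hp.add hq).congr_fderiv (by ext v; exact (dv_add x p q v).symm)
  | mul_X p ij hp =>
    obtain ⟨i, j⟩ := ij
    simp only [map_mul, ev_X]
    refine (hp.mul (LinearMap.toContinuousLinearMap
      (entryLinearMap k k i j : Mt n k →ₗ[k] k)).hasStrictFDerivAt).congr_fderiv ?_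
    ext v
    refine Eq.trans ?_ (dv_mul x p (X (i, j)) v).symm
    rw [dv_X, ev_X]
    rfl

theorem exists_lin (φ : Mt n k →ₗ[k] k) : ∃ p : Pl n k, (∀ x, ev x p = φ x) ∧ dv 1 p = φ := by
  obtain ⟨p, hp⟩ : PF φ := by
    have := PF.sum Finset.univ fun i _ => PF.sum Finset.univ fun j _ =>
      (PF.entry i j).mul (PF.const (n := n) (φ (single i j 1)))
    obtain ⟨p, hp⟩ := this
    refine ⟨p, fun x => Eq.trans ?_ (hp x)⟩
    conv_lhs => rw [matrix_eq_sum_single x]
    simp only [map_sum]
    refine Finset.sum_congr rfl fun i _ => Finset.sum_congr rfl fun j _ => ?_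
    rw [← smul_eq_mul, ← φ.map_smul, smul_single, smul_eq_mul, mul_one]
  refine ⟨p, fun x => (hp x).symm, LinearMap.toContinuousLinearMap.injective
    ((hasStrict_ev p 1).hasFDerivAt.unique ?_)⟩
  rw [← funext hp]
  exact (LinearMap.toContinuousLinearMap φ).hasFDerivAt

variable {K : Type} [Field K] [Algebra k K] [PerfectField K] {𝔾 : Subgroup (GL (Fin n) K)}

theorem dense_chart (h1 : ZCl (𝔾 : Set (GL (Fin n) K)))
    (h2 : (van (𝔾 : Set (GL (Fin n) K))).IsPrime)
    (h3 : van (𝔾 : Set (GL (Fin n) K)) ≤ Ideal.span {q | q ∈ van (𝔾 : Set (GL (Fin n) K)) ∧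
      ∃ p : Pl n k, q = map (algebraMap k K) p}) :
    (∀ p : Pl n K, (∀ᶠ x in 𝓝 (1 : Mt n k), Mem (pts k 𝔾) x → ev (x.map (algebraMap k K)) p = 0) →
      p ∈ van (𝔾 : Set (GL (Fin n) K))) ∧ Chart (pts k 𝔾) (lie (pts k 𝔾)) := by
  have : Infinite K := .of_injective _ (algebraMap k K).injective
  obtain ⟨r, f, η, e1, e2, e3, e4⟩ := loc_eqs h2 h3
  obtain ⟨d, A, hb⟩ := exists_compl _ e4
  have o1 : (1 : Mt n k).map (algebraMap k K) = 1 := Matrix.map_one _ (map_zero _) (map_one _)
  have o2 : ∀ p ∈ van (𝔾 : Set (GL (Fin n) K)), eval (en (1 : Mt n K)) p = 0 := fun p hp => by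
    rw [← ev_def, ← Units.val_one]; exact mem_van.1 hp 1 𝔾.one_mem
  have o3 : ∀ j, ev (1 : Mt n k) (f j) = 0 := fun j => by
    rw [← Units.val_one]; exact mem_van.1 (mem_van_pts (e2 j)) 1 (one_mem _)
  have hm : ∀ᶠ x in 𝓝 (1 : Mt n k), Mem (pts k 𝔾) x ↔ ∀ j, ev x (f j) = 0 := by
    obtain ⟨l, hl⟩ := not_forall.1 (mt (Module.forall_dual_apply_eq_zero_iff k (1 : K)).1 one_ne_zero)
    filter_upwards [(pf_lam l η).continuous.continuousAt.eventually_ne (x := 1) (y := 0) (by rwa [o1, e1]),
      (PF.det (PF.entry (n := n) (R := k))).continuous.continuousAt.eventually_ne (y := 0)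
        (x := 1) (det_one.trans_ne one_ne_zero)] with x a b
    refine ⟨fun ⟨g, hg, e⟩ j => e ▸ mem_van.1 (mem_van_pts (e2 j)) g hg,
      fun c => ⟨GeneralLinearGroup.mkOfDetNeZero x b, h1 _ fun p hp => ?_, rfl⟩⟩
    have : ev (x.map (algebraMap k K)) (η * p) = 0 := (Ideal.span_le.2 (by
      rintro _ ⟨j, rfl⟩
      exact RingHom.mem_ker.2 (by rw [ev_map, c, map_zero])) : _ ≤ RingHom.ker _) (e3 p hp)
    rw [map_mul, mul_eq_zero] at this
    exact this.resolve_left fun z => a (by rw [z, map_zero])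
  let E := (LinearEquiv.ofBijective _ hb).toContinuousLinearEquiv
  have hΦ : HasStrictFDerivAt (fun x : Mt n k => ((fun j => ev x (f j)), A x))
      (E : Mt n k →L[k] _) 1 :=
    ((hasStrictFDerivAt_pi.2 fun j => hasStrict_ev (f j) 1).prodMk
      (LinearMap.toContinuousLinearMap A).hasStrictFDerivAt).congr_fderiv (by ext <;> rfl)
  have hd : ∀ p : Pl n K, (∀ᶠ x in 𝓝 (1 : Mt n k), Mem (pts k 𝔾) x →
      ev (x.map (algebraMap k K)) p = 0) → p ∈ van (𝔾 : Set (GL (Fin n) K)) := fun p hp => by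
    by_contra e
    choose t t1 t2 using fun l => exists_lin ((LinearMap.proj l).comp A)
    obtain ⟨c, c0, q, hq⟩ := alg_dep e2 (fun l => map (algebraMap k K) (t l)) o2
      (fun w a b => funext fun ij => (Module.forall_dual_apply_eq_zero_iff k _).1 fun l => by
        have := (injective_iff_map_eq_zero _).1 hb.1 (of fun i j => l (w (i, j))) (Prod.ext
          (funext fun j => (lam_df l (f j) w).symm.trans (by rw [a, map_zero]; rfl))
          (funext fun j => by
            have := lam_df l (t j) w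
            rw [b, map_zero, t2] at this
            exact this.symm))
        exact congrFun (congrFun this ij.1) ij.2) e
    have k1 : ∀ᶠ z : (Fin r → k) × (Fin d → k) in 𝓝 (0, A 1),
        z.1 = 0 → eval (fun l => algebraMap k K (z.2 l)) c = 0 := by
      have := complete_mt (n := n) (k := k)
      have := hΦ.map_nhds_eq_of_equiv
      rw [show (fun j => ev (1 : Mt n k) (f j)) = 0 from funext o3] at this
      rw [← this, eventually_map]
      filter_upwards [hm, hp] with x a b z
      obtain ⟨g, hg, rfl⟩ := a.2 (congrFun z)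
      have := mem_van.1 hq _ hg
      rw [map_add, map_mul, io_val, b ⟨g, hg, rfl⟩, zero_mul, add_zero, map_aeval] at this
      simp only [ev_map, t1] at this
      rw [← this, eval]
      exact congrArg (fun φ => eval₂Hom φ _ c) (RingHom.ext fun a => (ev_C _ a).symm)
    obtain ⟨ε, hε, k2⟩ := Metric.eventually_nhds_iff.1
      ((continuous_const.prodMk continuous_id).continuousAt.eventually k1)
    refine c0 (funext_set (fun l => algebraMap k K '' Metric.ball (A 1 l) ε) (fun l =>
      (infinite_of_mem_nhds _ (Metric.ball_mem_nhds _ hε)).image (algebraMap k K).injective.injOn)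
      fun w hw => ?_)
    choose u u1 u2 using fun l => hw l trivial
    rw [← funext u2, map_zero]
    exact k2 ((dist_pi_lt_iff hε).2 u1) rfl
  have hl : ∀ v, v ∈ lie (pts k 𝔾) ↔ (E v).1 = 0 := fun v => by
    refine mem_lie.trans ⟨fun a => funext fun j => a _ (mem_van_pts (e2 j)), fun a p hp => ?_⟩
    have k1 := hd (map (algebraMap k K) p) (Eventually.of_forall fun x ⟨g, hg, e⟩ => by
      rw [ev_map, ← e, mem_van.1 hp g hg, map_zero])
    have k2 := (df_span (fun j => o2 _ (e2 j)) (e3 _ k1)).2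
    rw [df_mul, o2 _ k1, zero_smul, add_zero, ← ev_def, e1, one_smul] at k2
    obtain ⟨c, hc⟩ := (Submodule.mem_span_range_iff_exists_fun K).1 k2
    refine (algebraMap k K).injective ?_
    rw [alg_dv, ← hc, sum_dotProduct, map_zero]
    refine Finset.sum_eq_zero fun j _ => ?_
    rw [smul_dotProduct, ← alg_dv, show dv 1 (f j) v = 0 from congrFun a j, map_zero, smul_zero]
  refine ⟨hd, fun x => E.symm (((fun j => ev x (f j)), A x) - ((fun j => ev 1 (f j)), A 1)),
    (E.symm.analyticAt _).comp (((AnalyticAt.pi fun j => analyticAt_ev (f j) 1).prod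
      ((LinearMap.toContinuousLinearMap A).analyticAt 1)).sub analyticAt_const),
    by simp only [sub_self, map_zero], ?_, hm.mono fun x a => ?_⟩
  · exact (E.symm.hasFDerivAt.comp 1 (hΦ.hasFDerivAt.sub_const _)).congr_fderiv
      E.coe_symm_comp_coe
  · rw [a, hl, E.apply_symm_apply]
    simp only [o3, Prod.fst_sub, _root_.funext_iff, Pi.sub_apply, sub_zero, Pi.zero_apply]

/-- a connected group defined over `k` -/
theorem nice_of (h0 : ∀ g ∈ pts k 𝔾, (g : Mt n k).det = 1) (h1 : ZCl (𝔾 : Set (GL (Fin n) K)))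
    (h2 : (van (𝔾 : Set (GL (Fin n) K))).IsPrime)
    (h3 : van (𝔾 : Set (GL (Fin n) K)) ≤ Ideal.span {q | q ∈ van (𝔾 : Set (GL (Fin n) K)) ∧
      ∃ p : Pl n k, q = map (algebraMap k K) p}) : Nice (pts k 𝔾) (lie (pts k 𝔾)) := by
  obtain ⟨hd, hc⟩ := dense_chart h1 h2 h3
  have k1 : ∀ p : Pl n k, (∀ᶠ x in 𝓝 (1 : Mt n k), Mem (pts k 𝔾) x → ev x p = 0) →
      map (algebraMap k K) p ∈ van (𝔾 : Set (GL (Fin n) K)) := fun p hp =>
    hd _ (hp.mono fun x a b => by rw [ev_map, a b, map_zero])
  refine ⟨h0, fun g hg => h1 _ fun p hp => ?_, ?_, fun p hp => mem_van_pts (k1 p hp), hc⟩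
  · refine (Ideal.span_le.2 ?_ : _ ≤ RingHom.ker _) (h3 hp)
    rintro _ ⟨a, p, rfl⟩
    exact RingHom.mem_ker.2 (by rw [io_val, ev_map, hg p (mem_van_pts a), map_zero])
  · rw [show van (pts k 𝔾 : Set (GL (Fin n) k)) = (van (𝔾 : Set (GL (Fin n) K))).comap
      (MvPolynomial.map (algebraMap k K)) from Ideal.ext fun p => Iff.trans
        ⟨fun a => k1 p (Eventually.of_forall fun x ⟨g, hg, e⟩ => e ▸ mem_van.1 a g hg), mem_van_pts⟩
        Ideal.mem_comap.symm]
    exact Ideal.comap_isPrime _ _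

/-- neighbourhoods of the identity in the group of `k`-points are Zariski dense -/
theorem denseK (h : AbsSimple k 𝔾) (p : Pl n K) (hp : ∀ᶠ x in 𝓝 (1 : Mt n k),
    Mem (pts k 𝔾) x → ev (x.map (algebraMap k K)) p = 0) : p ∈ van (𝔾 : Set (GL (Fin n) K)) :=
  (dense_chart h.closed h.conn h.defd).1 p hp

/-- block A1 -/
theorem nice_pts (h : AbsSimple k 𝔾) : Nice (pts k 𝔾) (lie (pts k 𝔾)) :=
  nice_of (pts_det h) h.closed h.conn h.defd

/-- blocks A1 and A2 -/
theorem simp_pts' {K : Type} [NormedField K] [NormedAlgebra k K] [IsAlgClosed K]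
    {𝔾 : Subgroup (GL (Fin n) K)} (h : AbsSimple k 𝔾) : Simp (pts k 𝔾) :=
  simp_pts h (denseK h)

/-- the ideal of the `k`-points is the contraction -/
theorem mem_van_pts_iff (h : AbsSimple k 𝔾) {p : Pl n k} : p ∈ van (pts k 𝔾 : Set (GL (Fin n) k)) ↔
    map (algebraMap k K) p ∈ van (𝔾 : Set (GL (Fin n) K)) :=
  ⟨fun a => denseK h _ (Eventually.of_forall fun x ⟨g, hg, e⟩ => by
    rw [ev_map, ← e, mem_van.1 a g hg, map_zero]), mem_van_pts⟩

/-- the tangent space of a chart is contained in the Lie algebra -/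
theorem chart_le_lie {G : Subgroup (GL (Fin n) k)} {𝔤 : Submodule k (Mt n k)} (h : Chart G 𝔤) :
    𝔤 ≤ lie G := fun v hv => mem_lie.2 fun p hp => by
  obtain ⟨θ, a, b, c, d⟩ := h
  have := complete_mt (n := n) (k := k)
  have h1 : HasStrictFDerivAt θ (ContinuousLinearEquiv.refl k (Mt n k) : Mt n k →L[k] Mt n k) 1 :=
    a.hasStrictFDerivAt.congr_fderiv c.fderiv
  have h2 := h1.to_localInverse
  have h3 := h1.eventually_right_inverse
  have h4 := h1.localInverse_tendsto
  have h5 := h1.localInverse_apply_image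
  rw [b] at h2 h3 h4 h5
  have h6 : HasFDerivAt (fun t : k => t • v) (ContinuousLinearMap.toSpanSingleton k v) 0 :=
    (ContinuousLinearMap.toSpanSingleton k v).hasFDerivAt
  have h7 := (hasStrict_ev p 1).hasFDerivAt
  rw [← h5] at h7
  have h8 := h7.comp 0 h2.hasFDerivAt
  rw [← zero_smul k v] at h8 h3 h4
  have h9 := (h8.comp 0 h6).unique ((hasFDerivAt_const (0 : k) (0 : k)).congr_of_eventuallyEq (by
    filter_upwards [h6.continuousAt.eventually h3, (h4.comp h6.continuousAt).eventually d] with t e f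
    obtain ⟨g, hg, z⟩ := f.2 (by rw [Function.comp_apply, e]; exact 𝔤.smul_mem t hv)
    exact (congrArg (ev · p) z).symm.trans (mem_van.1 hp g hg)))
  rw [zero_smul, h5] at h9
  exact (congrArg (dv 1 p) (one_smul k v)).symm.trans (congrArg (fun φ : k →L[k] k => φ 1) h9)

end

end Vale.Agent.P092A1
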