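import Mathlib

/-!
Generic smoothness of prime ideals over perfect fields, local equations at smooth points,
algebraicity over local coordinates.
-/

set_option linter.all false

open MvPolynomial

namespace Vale.Agent.P092A1

noncomputable section

variable {K σ : Type} [Field K] [Fintype σ] {I : Ideal (MvPolynomial σ K)} {x y : σ → K}

/-- derivations along a ring map -/
theorem der_eq {S M : Type*} [CommRing S] [AddCommGroup M] [Module S M]
    (φ : MvPolynomial σ K →+* S) {δ : MvPolynomial σ K → M} (h0 : ∀ a, δ (C a) = 0)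
    (h1 : ∀ p q, δ (p + q) = δ p + δ q) (h2 : ∀ p q, δ (p * q) = φ p • δ q + φ q • δ p)
    (p : MvPolynomial σ K) : δ p = ∑ i, φ (pderiv i p) • δ (X i) := by
  classical
  induction p using MvPolynomial.induction_on with
  | C a => simp [h0]
  | add p q hp hq => simp only [h1, map_add, add_smul, Finset.sum_add_distrib, ← hp, ← hq]
  | mul_X p j hp =>
    simp only [h2, Derivation.leibniz, smul_eq_mul, map_add, map_mul, add_smul,
      Finset.sum_add_distrib, mul_smul, ← Finset.smul_sum, ← hp]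
    rw [Finset.sum_eq_single j (fun i _ e => by rw [pderiv_X_of_ne e.symm, map_zero, zero_smul])
      (by simp), pderiv_X_self, map_one, one_smul]

/-- a section modulo the square of the kernel -/
theorem exists_sec {R κ : Type} [CommRing R] [Algebra K R] [CommRing κ] [Algebra K κ]
    [Algebra.FormallySmooth K κ] (ρ : R →ₐ[K] κ) (hρ : Function.Surjective ρ) {𝔪 : Ideal R}
    (h : ∀ a, ρ a = 0 ↔ a ∈ 𝔪) : ∃ s : κ →ₐ[K] R ⧸ 𝔪 ^ 2,
      ∀ a, ∃ u ∈ 𝔪, Ideal.Quotient.mk _ u = Ideal.Quotient.mk _ a - s (ρ a) := by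
  let π : (R ⧸ 𝔪 ^ 2) →ₐ[K] κ := Ideal.Quotient.liftₐ _ ρ
    fun a ha => (h a).2 (Ideal.pow_le_self two_ne_zero ha)
  have hs : Function.Surjective π := fun z => by
    obtain ⟨a, rfl⟩ := hρ z
    exact ⟨Ideal.Quotient.mk _ a, rfl⟩
  have hn : IsNilpotent (RingHom.ker (π : (R ⧸ 𝔪 ^ 2) →+* κ)) :=
    ⟨2, (pow_two _).trans (le_bot_iff.1 (Ideal.mul_le.2 fun a ha b hb => by
      obtain ⟨a, rfl⟩ := Ideal.Quotient.mk_surjective a
      obtain ⟨b, rfl⟩ := Ideal.Quotient.mk_surjective b
      rw [← map_mul, Ideal.mem_bot, Ideal.Quotient.eq_zero_iff_mem, sq]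
      exact Ideal.mul_mem_mul ((h a).1 ha) ((h b).1 hb)))⟩
  refine ⟨Algebra.FormallySmooth.liftOfSurjective (AlgHom.id K κ) π hs hn, fun a => ?_⟩
  obtain ⟨u, hu⟩ := Ideal.Quotient.mk_surjective (Ideal.Quotient.mk (𝔪 ^ 2) a -
    Algebra.FormallySmooth.liftOfSurjective (AlgHom.id K κ) π hs hn (ρ a))
  refine ⟨u, (h u).1 ?_, hu⟩
  have := congrArg π hu
  rw [map_sub, Algebra.FormallySmooth.liftOfSurjective_apply _ π hs hn] at this
  exact this.trans (sub_self _)

theorem gen_loc {R κ : Type} [CommRing R] [Algebra K R] [CommRing κ] [Algebra K κ]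
    [Algebra.FormallySmooth K κ] (ρ : R →ₐ[K] κ) (hρ : Function.Surjective ρ) {𝔪 : Ideal R}
    (h : ∀ a, ρ a = 0 ↔ a ∈ 𝔪) (j : MvPolynomial σ K →ₐ[K] R) :
    ∃ u : σ → R, (∀ i, u i ∈ 𝔪) ∧
      ∀ p, j p ∈ 𝔪 → j p - ∑ i, j (pderiv i p) * u i ∈ 𝔪 ^ 2 := by
  obtain ⟨s, hs⟩ := exists_sec ρ hρ h
  choose u hu eu using hs
  have key := der_eq ((Ideal.Quotient.mk (𝔪 ^ 2)).comp (j : MvPolynomial σ K →+* R))
    (δ := fun p => Ideal.Quotient.mk (𝔪 ^ 2) (u (j p))) (fun a => by
      rw [eu, ← MvPolynomial.algebraMap_eq, j.commutes, ρ.commutes, s.commutes, sub_eq_zero]; rfl)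
    (fun p q => by simp only [eu, map_add]; ring) fun p q => by
      have := Ideal.Quotient.eq_zero_iff_mem.2 (sq 𝔪 ▸ Ideal.mul_mem_mul (hu (j p)) (hu (j q)))
      simp only [eu, map_mul, smul_eq_mul, RingHom.comp_apply, RingHom.coe_coe] at this ⊢
      linear_combination -this
  refine ⟨fun i => u (j (X i)), fun i => hu _, fun p hp => Ideal.Quotient.eq_zero_iff_mem.1 ?_⟩
  have := key p
  rw [eu, (h _).2 hp, map_zero, sub_zero] at this
  simp only [map_sub, map_sum, map_mul, this, sub_eq_zero]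
  rfl

/-- the conormal sequence splits at the generic point -/
theorem gen_pt [PerfectField K] (I : Ideal (MvPolynomial σ K)) [I.IsPrime] :
    ∃ b ∉ I, ∃ v : σ → MvPolynomial σ K, (∀ i, v i ∈ I) ∧
      ∀ h ∈ I, ∃ m ∉ I, m * (b * h - ∑ i, pderiv i h * v i) ∈ I ^ 2 := by
  have : Algebra.EssFiniteType K I.ResidueField := .comp K (MvPolynomial σ K) _
  obtain ⟨u, hu, H⟩ := gen_loc (IsScalarTower.toAlgHom K (Localization.AtPrime I) I.ResidueField)
    IsLocalRing.residue_surjective IsLocalRing.residue_eq_zero_iff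
    (IsScalarTower.toAlgHom K (MvPolynomial σ K) (Localization.AtPrime I))
  obtain ⟨b, hb⟩ := IsLocalization.exist_integer_multiples_of_finite I.primeCompl u
  choose v hv using hb
  have e := IsLocalization.AtPrime.to_map_mem_maximal_iff (Localization.AtPrime I) I
  refine ⟨b, b.2, v, fun i => ?_, fun h hh => ?_⟩
  · rw [← e, hv, Algebra.smul_def]
    exact Ideal.mul_mem_left _ _ (hu i)
  · refine (IsLocalization.algebraMap_mem_map_algebraMap_iff I.primeCompl
      (Localization.AtPrime I) _ _).1 ?_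
    have := Ideal.mul_mem_left _ (algebraMap _ _ b.1) (H h ((e h).2 hh))
    rw [Ideal.map_pow, Localization.AtPrime.map_eq_maximalIdeal]
    simp only [map_sub, map_mul, map_sum, hv, Algebra.smul_def, mul_sub, Finset.mul_sum,
      IsScalarTower.coe_toAlgHom', mul_left_comm] at this ⊢
    exact this

/-- generic smoothness -/
theorem gen_sm [PerfectField K] (I : Ideal (MvPolynomial σ K)) [hI : I.IsPrime] :
    ∃ c ∉ I, ∀ J, I ≤ J → ∀ h ∈ I, (∀ i, pderiv i h ∈ J) → c * h ∈ J * I := by
  obtain ⟨b, hb, v, hv, H⟩ := gen_pt I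
  obtain ⟨t, ht⟩ := IsNoetherian.noetherian I
  choose! m hm using H
  have tI : ∀ h ∈ t, h ∈ I := fun h a => ht ▸ Submodule.subset_span a
  have key : ∀ h ∈ I, (∏ a ∈ t, m a) * (b * h - ∑ i, pderiv i h * v i) ∈ I ^ 2 := fun h hh => by
    classical
    rw [← ht] at hh
    induction hh using Submodule.span_induction with
    | mem h a =>
      rw [← Finset.mul_prod_erase t m a, mul_comm (m h), mul_assoc]
      exact Ideal.mul_mem_left _ _ (hm h (tI h a)).2
    | zero => simp
    | add p q _ _ hp hq =>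
      have := add_mem hp hq
      simp only [map_add, add_mul, Finset.sum_add_distrib]
      exact Set.mem_of_eq_of_mem (by ring) this
    | smul a p k hp =>
      have := sub_mem (Ideal.mul_mem_left _ a hp) (Ideal.mul_mem_left _ (∏ a ∈ t, m a)
        (sq I ▸ Ideal.mul_mem_mul (ht ▸ k : p ∈ I)
          (sum_mem fun i (_ : i ∈ Finset.univ) => Ideal.mul_mem_left _ (pderiv i a) (hv i))))
      simp only [smul_eq_mul, Derivation.leibniz, add_mul, Finset.sum_add_distrib, mul_assoc,
        ← Finset.mul_sum]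
      exact Set.mem_of_eq_of_mem (by ring) this
  refine ⟨(∏ a ∈ t, m a) * b, hI.mul_notMem
    (prod_mem (S := I.primeCompl) fun a k => (hm a (tI a k)).1) hb, fun J hJ h hh k => ?_⟩
  have := add_mem (Ideal.mul_mono_left hJ (sq I ▸ key h hh)) (Ideal.mul_mem_left _ (∏ a ∈ t, m a)
    (sum_mem fun i (_ : i ∈ Finset.univ) => Ideal.mul_mem_mul (k i) (hv i)))
  exact Set.mem_of_eq_of_mem (by ring) this

/-- the differential at a point -/
def df (x : σ → K) : MvPolynomial σ K →ₗ[K] σ → K where
  toFun p i := eval x (pderiv i p)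
  map_add' p q := funext fun i => by simp
  map_smul' a p := funext fun i => by simp [smul_eval]

/-- smooth points -/
def Sm (I : Ideal (MvPolynomial σ K)) (x : σ → K) : Prop :=
  ∀ h ∈ I, df x h = 0 → h ∈ RingHom.ker (eval x) * I

theorem exists_sm [PerfectField K] (I : Ideal (MvPolynomial σ K)) [I.IsPrime] :
    ∃ c ∉ I, ∀ x, (∀ h ∈ I, eval x h = 0) → eval x c ≠ 0 → Sm I x := by
  obtain ⟨c, hc, H⟩ := gen_sm I
  refine ⟨c, hc, fun x hx k h hh e => ?_⟩
  have h1 := sub_mem (H (RingHom.ker (eval x)) hx h hh (congrFun e))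
    (Ideal.mul_mem_mul (show c - C (eval x c) ∈ RingHom.ker (eval x) by simp) hh)
  have h2 := Ideal.mul_mem_left _ (C (eval x c)⁻¹) h1
  rwa [← sub_mul, sub_sub_cancel, ← mul_assoc, ← map_mul, inv_mul_cancel₀ k, map_one, one_mul] at h2

/-- the chain rule -/
theorem df_comp (τ : MvPolynomial σ K →ₐ[K] MvPolynomial σ K) (e : ∀ h, eval x (τ h) = eval y h)
    (h : MvPolynomial σ K) : df x (τ h) = ∑ i, df y h i • df x (τ (X i)) :=
  der_eq (eval y) (δ := fun h => df x (τ h))
    (fun a => funext fun i => by simp [df]) (fun p q => by simp only [map_add])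
    (fun p q => funext fun i => by simp [df, e]) h

theorem Sm.map {τ τ' : MvPolynomial σ K →ₐ[K] MvPolynomial σ K} (H : Sm I x)
    (h1 : ∀ h ∈ I, τ h ∈ I) (h2 : ∀ h ∈ I, τ' h ∈ I) (e : ∀ h, τ (τ' h) = h)
    (e1 : ∀ h, eval y (τ h) = eval x h) : Sm I y := fun h hh k => by
  have := Ideal.mem_map_of_mem τ (H _ (h2 h hh) (by
    rw [df_comp τ' (y := y) fun h => by rw [← e1, e]]; simp [k]))
  rw [e, Ideal.map_mul] at this
  exact Ideal.mul_mono (Ideal.map_le_iff_le_comap.2 fun a b => Ideal.mem_comap.2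
    (RingHom.mem_ker.2 ((e1 a).trans b))) (Ideal.map_le_iff_le_comap.2 h1) this

theorem df_mul (p q : MvPolynomial σ K) :
    df x (p * q) = eval x p • df x q + eval x q • df x p :=
  funext fun i => by simp [df]

theorem df_span {ι : Type} {T : ι → MvPolynomial σ K} (h0 : ∀ t, eval x (T t) = 0)
    {h : MvPolynomial σ K} (hh : h ∈ Ideal.span (Set.range T)) :
    eval x h = 0 ∧ df x h ∈ Submodule.span K (Set.range fun t => df x (T t)) := by
  induction hh using Submodule.span_induction with
  | mem _ a =>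
    obtain ⟨t, rfl⟩ := a
    exact ⟨h0 t, Submodule.subset_span ⟨t, rfl⟩⟩
  | zero => exact ⟨map_zero _, by rw [map_zero]; exact zero_mem _⟩
  | add a b _ _ c d =>
    exact ⟨by rw [map_add, c.1, d.1, add_zero], by rw [map_add]; exact add_mem c.2 d.2⟩
  | smul a b _ c =>
    rw [smul_eq_mul, map_mul, df_mul, c.1, mul_zero, zero_smul, add_zero]
    exact ⟨rfl, Submodule.smul_mem _ _ c.2⟩

/-- local equations chosen in a generating family -/
theorem Sm.eqs (H : Sm I x) {ι : Type} {T : ι → MvPolynomial σ K} (h1 : ∀ t, T t ∈ I)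
    (h0 : ∀ t, eval x (T t) = 0) (h2 : I ≤ Ideal.span (Set.range T)) :
    ∃ (r : ℕ) (f : Fin r → ι) (η : MvPolynomial σ K), eval x η = 1 ∧
      (∀ h ∈ I, η * h ∈ Ideal.span (Set.range (T ∘ f))) ∧
      LinearIndependent K fun j => df x (T (f j)) := by
  obtain ⟨κ, a, -, sp, li⟩ := exists_linearIndependent' K fun t => df x (T t)
  have := li.finite
  obtain ⟨r, ⟨e⟩⟩ := Finite.exists_equiv_fin κ
  have hle : I ≤ Ideal.span (Set.range (T ∘ a ∘ e.symm)) ⊔ RingHom.ker (eval x) • I := fun h hh => by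
    have k : df x h ∈ Submodule.span K (Set.range fun j => df x (T (a (e.symm j)))) := by
      change _ ∈ Submodule.span K (Set.range (((fun t => df x (T t)) ∘ a) ∘ e.symm))
      rw [e.symm.surjective.range_comp, sp]
      exact (df_span h0 (h2 hh)).2
    obtain ⟨c, hc⟩ := (Submodule.mem_span_range_iff_exists_fun K).1 k
    rw [← add_sub_cancel (∑ j, c j • T (a (e.symm j))) h]
    refine Submodule.add_mem_sup (sum_mem fun j _ => Submodule.smul_of_tower_mem _ _
      (Ideal.subset_span ⟨j, rfl⟩)) (H _ (sub_mem hh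
        (sum_mem fun j _ => Submodule.smul_of_tower_mem _ _ (h1 _))) ?_)
    simp only [map_sub, map_sum, map_smul, hc, sub_self]
  obtain ⟨η, k1, k2⟩ := Submodule.exists_sub_one_mem_and_smul_le_of_fg_of_le_sup
    (IsNoetherian.noetherian I) le_rfl hle
  exact ⟨r, a ∘ e.symm, η, by simpa [sub_eq_zero] using k1,
    fun h hh => k2 (Submodule.smul_mem_pointwise_smul h η I hh), li.comp _ e.symm.injective⟩

/-- the coordinate ring is algebraic over local coordinates -/
theorem alg_dep [I.IsPrime] {ι ι' : Type} [Fintype ι] [Fintype ι'] {f : ι → MvPolynomial σ K}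
    (hf : ∀ j, f j ∈ I) (t : ι' → MvPolynomial σ K) (hx : ∀ h ∈ I, eval x h = 0)
    (hJ : ∀ v : σ → K, (∀ j, df x (f j) ⬝ᵥ v = 0) → (∀ l, df x (t l) ⬝ᵥ v = 0) → v = 0)
    {p : MvPolynomial σ K} (hp : p ∉ I) :
    ∃ c : MvPolynomial ι' K, c ≠ 0 ∧ ∃ q, aeval t c + p * q ∈ I := by
  classical
  let φ := algebraMap (MvPolynomial σ K) I.ResidueField
  have φ0 : ∀ a, φ a = 0 ↔ a ∈ I := fun a => Ideal.algebraMap_residueField_eq_zero
  let ψ : MvPolynomial ι' K →ₐ[K] I.ResidueField :=
    (IsScalarTower.toAlgHom K (MvPolynomial σ K) I.ResidueField).comp (aeval t)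
  by_cases hψ : Function.Injective ψ
  swap
  · rw [injective_iff_map_eq_zero] at hψ
    push Not at hψ
    obtain ⟨c, a, b⟩ := hψ
    exact ⟨c, b, 0, by rw [mul_zero, add_zero]; exact (φ0 _).1 a⟩
  let J : Matrix (ι ⊕ ι') σ (MvPolynomial σ K) := Matrix.of fun j i => pderiv i (Sum.elim f t j)
  obtain ⟨B, hB⟩ := (J.map (eval x)).mulVecLin.exists_leftInverse_of_injective
    (LinearMap.ker_eq_bot'.2 fun v hv => hJ v (fun j => congrFun hv (Sum.inl j))
      fun j => congrFun hv (Sum.inr j))
  let N := (LinearMap.toMatrix' B).map (C : K →+* MvPolynomial σ K) * J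
  have hN : (N.map φ).det ≠ 0 := fun e => by
    have e1 := hx _ ((φ0 _).1 ((RingHom.map_det φ N).trans e))
    have e2 := congrArg LinearMap.toMatrix' hB
    rw [LinearMap.toMatrix'_comp, ← Matrix.toLin'_apply', LinearMap.toMatrix'_toLin',
      LinearMap.toMatrix'_id] at e2
    rw [RingHom.map_det, RingHom.mapMatrix_apply, Matrix.map_mul, Matrix.map_map,
      show eval x ∘ (C : K →+* MvPolynomial σ K) = id from funext fun a => eval_C a,
      Matrix.map_id, e2, Matrix.det_one] at e1
    exact one_ne_zero e1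
  letI : Algebra (MvPolynomial ι' K) I.ResidueField := ψ.toRingHom.toAlgebra
  have : IsScalarTower K (MvPolynomial ι' K) I.ResidueField :=
    .of_algebraMap_eq fun a => (ψ.commutes a).symm
  have : FaithfulSMul (MvPolynomial ι' K) I.ResidueField :=
    (faithfulSMul_iff_algebraMap_injective _ _).2 hψ
  letI := FractionRing.liftAlgebra (MvPolynomial ι' K) I.ResidueField
  have : IsScalarTower K (FractionRing (MvPolynomial ι' K)) I.ResidueField :=
    .of_algebraMap_eq fun a => by
      rw [IsScalarTower.algebraMap_apply K (MvPolynomial ι' K) (FractionRing _),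
        ← IsScalarTower.algebraMap_apply, ← IsScalarTower.algebraMap_apply]
  have : Algebra.EssFiniteType K I.ResidueField := .comp K (MvPolynomial σ K) _
  have : Algebra.EssFiniteType (FractionRing (MvPolynomial ι' K)) I.ResidueField := .of_comp K _ _
  have : Algebra.FormallyUnramified (MvPolynomial ι' K) I.ResidueField := by
    let D := KaehlerDifferential.D (MvPolynomial ι' K) I.ResidueField
    have key := der_eq φ (δ := fun p => D (φ p))
      (fun a => by
        have := D.map_algebraMap (C a)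
        rwa [show algebraMap _ I.ResidueField (C a : MvPolynomial ι' K) = φ (C a) from
          (ψ.commutes a).trans (IsScalarTower.algebraMap_apply K (MvPolynomial σ K) _ a)] at this)
      (fun p q => by simp only [map_add]) fun p q => by simp only [map_mul, Derivation.leibniz]
    have k1 : ∀ j, D (φ (Sum.elim f t j)) = 0 := by
      rintro (j | j)
      · rw [Sum.elim_inl, (φ0 _).2 (hf j), map_zero]
      · have := D.map_algebraMap (X j)
        rwa [show algebraMap _ I.ResidueField (X j : MvPolynomial ι' K) = φ (t j) from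
          congrArg φ (aeval_X t j)] at this
    have k2 : ∀ i, D (φ (X i)) = 0 := fun i =>
      (Module.forall_dual_apply_eq_zero_iff I.ResidueField _).1 fun l => by
        refine congrFun (Matrix.eq_zero_of_mulVec_eq_zero (v := fun i => l (D (φ (X i)))) hN ?_) i
        rw [Matrix.map_mul, ← Matrix.mulVec_mulVec,
          show (J.map φ).mulVec (fun i => l (D (φ (X i)))) = 0 from funext fun j => ?_,
          Matrix.mulVec_zero]
        have := congrArg l ((key _).symm.trans (k1 j))
        rw [map_sum, map_zero] at this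
        simp only [map_smul] at this
        exact this
    have k3 : ∀ a, D (φ a) = 0 := fun a => by simp only [key a, k2, smul_zero, Finset.sum_const_zero]
    refine ⟨⟨fun a b => ?_⟩⟩
    have k4 : (⊤ : Submodule I.ResidueField Ω[I.ResidueField⁄MvPolynomial ι' K]) ≤ ⊥ := by
      rw [← KaehlerDifferential.span_range_derivation, Submodule.span_le]
      rintro _ ⟨z, rfl⟩
      obtain ⟨⟨a, b, hb⟩, e⟩ := IsLocalization.surj (nonZeroDivisors (MvPolynomial σ K ⧸ I)) z
      obtain ⟨a, rfl⟩ := Ideal.Quotient.mk_surjective a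
      obtain ⟨b, rfl⟩ := Ideal.Quotient.mk_surjective b
      have := congrArg D (show z * φ b = φ a from e)
      rw [D.leibniz, k3, k3, smul_zero, zero_add, smul_eq_zero] at this
      exact this.resolve_left fun c => nonZeroDivisors.ne_zero hb
        (Ideal.Quotient.eq_zero_iff_mem.2 ((φ0 _).1 c))
    rw [(Submodule.mem_bot _).1 (k4 (Submodule.mem_top (x := a))),
      (Submodule.mem_bot _).1 (k4 (Submodule.mem_top (x := b)))]
  have := Algebra.FormallyUnramified.of_restrictScalars (MvPolynomial ι' K)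
    (FractionRing (MvPolynomial ι' K)) I.ResidueField
  have := Algebra.FormallyUnramified.isSeparable (FractionRing (MvPolynomial ι' K)) I.ResidueField
  obtain ⟨q, q0, hq⟩ := ((IsFractionRing.isAlgebraic_iff (MvPolynomial ι' K)
    (FractionRing (MvPolynomial ι' K)) I.ResidueField).2 (Algebra.IsAlgebraic.isAlgebraic (φ p))
    ).exists_nonzero_coeff_and_aeval_eq_zero (mem_nonZeroDivisors_of_ne_zero (mt (φ0 p).1 hp))
  refine ⟨_, q0, q.divX.eval₂ (aeval t : MvPolynomial ι' K →ₐ[K] _) p, (φ0 _).1 ?_⟩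
  rw [← q.X_mul_divX_add, map_add, map_mul, Polynomial.aeval_X, Polynomial.aeval_C, add_comm] at hq
  rw [map_add, map_mul, Polynomial.hom_eval₂]
  exact hq

end

end Vale.Agent.P092A1
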